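import Vale.Agent.P319.SC.Iface

/-! P319, block SC, package VAN: elementary facts on configurations. -/

namespace Vale.Agent.P319.H924

open Finset Vale.Agent.P319.SC

variable {V ι : Type} [Fintype V] [DecidableEq V] [DecidableEq ι] {m : ℕ}

/-- equality of the fibre cardinalities gives a bijection -/
theorem exists_equiv_of_card (g g' : V → ι)
    (h : ∀ i, (univ.filter fun z => g z = i).card = (univ.filter fun z => g' z = i).card) :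
    ∃ e : V ≃ V, ∀ z, g' (e z) = g z := by
  have h1 : ∀ i : ι, Nonempty ({z // g z = i} ≃ {z // g' z = i}) := fun i =>
    Fintype.card_eq.1 (by
      rw [Fintype.card_subtype, Fintype.card_subtype]
      exact h i)
  let e := ((Equiv.sigmaFiberEquiv g).symm.trans
    (Equiv.sigmaCongrRight fun i => (h1 i).some)).trans (Equiv.sigmaFiberEquiv g')
  exact ⟨e, fun z => ((h1 (g z)).some ⟨z, rfl⟩).2⟩

theorem Cfg.c2_swap (𝒞 : Cfg V ι m) (hm : 2 ≤ m) {a b a' b' : V} (h : 𝒞.c2 a b = 𝒞.c2 a' b') :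
    𝒞.c2 b a = 𝒞.c2 b' a' := by
  have h1 := 𝒞.sub 2 2 hm hm (fun i => if i = 0 then 1 else 0) (by
    intro i _
    split_ifs <;> omega) _ _ h
  have e : ∀ a b : V, 𝒞.col 2 (ins 1 (fun _ => a) b ∘ fun i => if i = 0 then 1 else 0) =
      𝒞.c2 b a := by
    intro a b
    refine 𝒞.dep 2 hm _ _ fun i hi => ?_
    interval_cases i <;> simp [ins]
  rwa [e, e] at h1

theorem Cfg.c1_fst (𝒞 : Cfg V ι m) (hm : 2 ≤ m) {a b a' b' : V} (h : 𝒞.c2 a b = 𝒞.c2 a' b') :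
    𝒞.c1 a = 𝒞.c1 a' := by
  have h1 := 𝒞.sub 1 2 (by omega) hm (fun _ => 0) (by intro i _; omega) _ _ h
  exact h1

theorem Cfg.c1_snd (𝒞 : Cfg V ι m) (hm : 2 ≤ m) {a b a' b' : V} (h : 𝒞.c2 a b = 𝒞.c2 a' b') :
    𝒞.c1 b = 𝒞.c1 b' := Cfg.c1_fst 𝒞 hm (Cfg.c2_swap 𝒞 hm h)

theorem Cfg.c2_diag (𝒞 : Cfg V ι m) (hm : 2 ≤ m) {a a' : V} (h : 𝒞.c1 a = 𝒞.c1 a') :
    𝒞.c2 a a = 𝒞.c2 a' a' := by
  have h1 := 𝒞.sub 2 1 hm (by omega) (fun _ => 0) (by intro i _; omega) _ _ h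
  have e : ∀ a : V, 𝒞.col 2 ((fun _ => a) ∘ fun _ : ℕ => 0) = 𝒞.c2 a a := by
    intro a
    refine 𝒞.dep 2 hm _ _ fun i hi => ?_
    interval_cases i <;> simp [ins]
  rwa [e, e] at h1

theorem Cfg.c2_eq (𝒞 : Cfg V ι m) (hm : 2 ≤ m) {a b a' b' : V} (h : 𝒞.c2 a b = 𝒞.c2 a' b')
    (hab : a = b) : a' = b' := by
  have := 𝒞.eqv 2 hm _ _ h 0 (by omega) 1 (by omega) (by simpa [ins] using hab)
  simpa [ins] using this

theorem Cfg.exists_equiv1 (𝒞 : Cfg V ι m) (hm : 2 ≤ m) {a a' : V} (h : 𝒞.c1 a = 𝒞.c1 a') :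
    ∃ e : V ≃ V, ∀ z, 𝒞.c2 a' (e z) = 𝒞.c2 a z := by
  refine exists_equiv_of_card _ _ fun i => ?_
  exact 𝒞.ext 1 (by omega) _ _ h i

theorem Cfg.exists_equiv2 (𝒞 : Cfg V ι m) (hm : 3 ≤ m) {a b a' b' : V}
    (h : 𝒞.c2 a b = 𝒞.c2 a' b') :
    ∃ e : V ≃ V, ∀ z, 𝒞.c2 a' (e z) = 𝒞.c2 a z ∧ 𝒞.c2 (e z) b' = 𝒞.c2 z b := by
  obtain ⟨e, he⟩ := exists_equiv_of_card
    (fun z => 𝒞.col 3 (ins 2 (ins 1 (fun _ => a) b) z))
    (fun z => 𝒞.col 3 (ins 2 (ins 1 (fun _ => a') b') z)) (fun i => 𝒞.ext 2 (by omega) _ _ h i)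
  refine ⟨e, fun z => ⟨?_, ?_⟩⟩
  · have h1 := 𝒞.sub 2 3 (by omega) hm (fun i => if i = 0 then 0 else 2) (by
      intro i _
      split_ifs <;> omega) _ _ (he z)
    have e : ∀ a b z : V, 𝒞.col 2 (ins 2 (ins 1 (fun _ => a) b) z ∘
        fun i => if i = 0 then 0 else 2) = 𝒞.c2 a z := by
      intro a b z
      refine 𝒞.dep 2 (by omega) _ _ fun i hi => ?_
      interval_cases i <;> simp [ins]
    rwa [e, e] at h1
  · have h1 := 𝒞.sub 2 3 (by omega) hm (fun i => if i = 0 then 2 else 1) (by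
      intro i _
      split_ifs <;> omega) _ _ (he z)
    have e : ∀ a b z : V, 𝒞.col 2 (ins 2 (ins 1 (fun _ => a) b) z ∘
        fun i => if i = 0 then 2 else 1) = 𝒞.c2 z b := by
      intro a b z
      refine 𝒞.dep 2 (by omega) _ _ fun i hi => ?_
      interval_cases i <;> simp [ins]
    rwa [e, e] at h1

section Inv

variable {K : Type*} [CommRing K]

theorem Inv2.mul {𝒞 : Cfg V ι m} (hm : 3 ≤ m) {A B : Matrix V V K} (hA : 𝒞.Inv2 A)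
    (hB : 𝒞.Inv2 B) : 𝒞.Inv2 (A * B) := by
  intro a b a' b' h
  obtain ⟨e, he⟩ := Cfg.exists_equiv2 𝒞 hm h
  rw [Matrix.mul_apply, Matrix.mul_apply, ← Equiv.sum_comp e (fun z => A a' z * B z b')]
  refine Finset.sum_congr rfl fun z _ => ?_
  rw [hA _ _ _ _ (he z).1, hB _ _ _ _ (he z).2]

theorem Inv2.add {𝒞 : Cfg V ι m} {A B : Matrix V V K} (hA : 𝒞.Inv2 A)
    (hB : 𝒞.Inv2 B) : 𝒞.Inv2 (A + B) := by
  intro a b a' b' h
  rw [Matrix.add_apply, Matrix.add_apply, hA _ _ _ _ h, hB _ _ _ _ h]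

theorem Inv2.smul {𝒞 : Cfg V ι m} {A : Matrix V V K} (c : K) (hA : 𝒞.Inv2 A) :
    𝒞.Inv2 (c • A) := by
  intro a b a' b' h
  rw [Matrix.smul_apply, Matrix.smul_apply, hA _ _ _ _ h]

theorem Inv2.sub {𝒞 : Cfg V ι m} {A B : Matrix V V K} (hA : 𝒞.Inv2 A)
    (hB : 𝒞.Inv2 B) : 𝒞.Inv2 (A - B) := by
  intro a b a' b' h
  rw [Matrix.sub_apply, Matrix.sub_apply, hA _ _ _ _ h, hB _ _ _ _ h]

theorem Inv2.transpose {𝒞 : Cfg V ι m} (hm : 2 ≤ m) {A : Matrix V V K} (hA : 𝒞.Inv2 A) :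
    𝒞.Inv2 A.transpose := by
  intro a b a' b' h
  rw [Matrix.transpose_apply, Matrix.transpose_apply]
  exact hA _ _ _ _ (Cfg.c2_swap 𝒞 hm h)

theorem Inv2.one {𝒞 : Cfg V ι m} (hm : 2 ≤ m) : 𝒞.Inv2 (1 : Matrix V V K) := by
  intro a b a' b' h
  rw [Matrix.one_apply, Matrix.one_apply]
  congr 1
  exact propext ⟨Cfg.c2_eq 𝒞 hm h, Cfg.c2_eq 𝒞 hm h.symm⟩

theorem Inv2.aeval {𝒞 : Cfg V ι m} (hm : 3 ≤ m) {A : Matrix V V K} (hA : 𝒞.Inv2 A)
    (p : Polynomial K) : 𝒞.Inv2 (Polynomial.aeval A p) := by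
  have hpow : ∀ k : ℕ, 𝒞.Inv2 (A ^ k) := by
    intro k
    induction k with
    | zero =>
      rw [pow_zero]
      exact Inv2.one (by omega)
    | succ k ih =>
      rw [pow_succ]
      exact Inv2.mul hm ih hA
  induction p using Polynomial.induction_on' with
  | add p q hp hq =>
    rw [map_add]
    exact Inv2.add hp hq
  | monomial k a =>
    rw [Polynomial.aeval_monomial, Algebra.algebraMap_eq_smul_one, smul_mul_assoc, one_mul]
    exact Inv2.smul a (hpow k)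

theorem Non.mul_left {𝒞 : Cfg V ι m} (A : Matrix V V K) {B : Matrix V V K} (hB : 𝒞.Non B) :
    𝒞.Non (A * B) := by
  intro a ρ
  simp only [Matrix.mul_apply]
  rw [Finset.sum_comm]
  refine Finset.sum_eq_zero fun z _ => ?_
  rw [← Finset.mul_sum, hB, mul_zero]

end Inv

end Vale.Agent.P319.H924
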