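import Vale.Agent.P319.H924.Spec
import Vale.Agent.P319.H924.Basic

/-! P319, block SC, package VAN. -/

namespace Vale.Agent.P319.H924

open Finset Vale.Agent.P319.SC

variable {V ι : Type} [Fintype V] [DecidableEq V] [DecidableEq ι] {m : ℕ}

/-- the indicator of a colour of pairs -/
def ind (𝒞 : Cfg V ι m) (R : ι) : Matrix V V ℝ := Matrix.of fun a b => if 𝒞.c2 a b = R then 1 else 0

/-- the indicator of `X × X` -/
def jay (𝒞 : Cfg V ι m) (ρ : ι) : Matrix V V ℝ :=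
  Matrix.of fun a b => if 𝒞.c1 a = ρ ∧ 𝒞.c1 b = ρ then 1 else 0

theorem ind_apply (𝒞 : Cfg V ι m) (R : ι) (a b : V) :
    ind 𝒞 R a b = if 𝒞.c2 a b = R then 1 else 0 := rfl

theorem jay_apply (𝒞 : Cfg V ι m) (ρ : ι) (a b : V) :
    jay 𝒞 ρ a b = if 𝒞.c1 a = ρ ∧ 𝒞.c1 b = ρ then 1 else 0 := rfl

theorem inv2_ind (𝒞 : Cfg V ι m) (R : ι) : 𝒞.Inv2 (ind 𝒞 R) := by
  intro a b a' b' h
  rw [ind_apply, ind_apply, h]

theorem inv2_jay (𝒞 : Cfg V ι m) (hm : 2 ≤ m) (ρ : ι) : 𝒞.Inv2 (jay 𝒞 ρ) := by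
  intro a b a' b' h
  rw [jay_apply, jay_apply, Cfg.c1_fst 𝒞 hm h, Cfg.c1_snd 𝒞 hm h]

/-- the data of a colour of pairs inside the class `ρ` -/
theorem row_ind (𝒞 : Cfg V ι m) (hm : 2 ≤ m) {ρ R : ι} {v : V} (hv : 𝒞.c1 v = ρ)
    (hR : R ∈ 𝒞.rels ρ ρ) (a : V) (σ : ι) : ∑ b ∈ 𝒞.cls σ, ind 𝒞 R a b =
      if 𝒞.c1 a = ρ ∧ σ = ρ then ((univ.filter fun z => 𝒞.c2 v z = R).card : ℝ) else 0 := by
  obtain ⟨⟨x, y⟩, hxy, rfl⟩ := Finset.mem_image.1 hR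
  rw [Finset.mem_product] at hxy
  have hx : 𝒞.c1 x = ρ := (Finset.mem_filter.1 hxy.1).2
  have hy : 𝒞.c1 y = ρ := (Finset.mem_filter.1 hxy.2).2
  dsimp only at hR ⊢
  have key : ∀ b, 𝒞.c2 a b = 𝒞.c2 x y → 𝒞.c1 a = ρ ∧ 𝒞.c1 b = ρ := fun b hb =>
    ⟨(Cfg.c1_fst 𝒞 hm hb).trans hx, (Cfg.c1_snd 𝒞 hm hb).trans hy⟩
  split_ifs with h
  · obtain ⟨h1, rfl⟩ := h
    obtain ⟨e, he⟩ := Cfg.exists_equiv1 𝒞 hm (hv.trans h1.symm)
    have e1 : ∑ b ∈ 𝒞.cls σ, ind 𝒞 (𝒞.c2 x y) a b = ∑ b, ind 𝒞 (𝒞.c2 x y) a b := by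
      refine Finset.sum_subset (Finset.subset_univ _) fun b _ hb => ?_
      rw [ind_apply, if_neg]
      intro h'
      exact hb (Finset.mem_filter.2 ⟨mem_univ _, (key b h').2⟩)
    rw [e1, ← Equiv.sum_comp e]
    simp only [ind_apply, he]
    rw [Finset.sum_ite, Finset.sum_const_zero, add_zero, Finset.sum_const, nsmul_eq_mul, mul_one]
  · refine Finset.sum_eq_zero fun b hb => ?_
    rw [ind_apply, if_neg]
    intro h'
    refine h ⟨(key b h').1, ?_⟩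
    rw [← (Finset.mem_filter.1 hb).2]
    exact (key b h').2

theorem row_jay (𝒞 : Cfg V ι m) (ρ : ι) (a : V) (σ : ι) : ∑ b ∈ 𝒞.cls σ, jay 𝒞 ρ a b =
      if 𝒞.c1 a = ρ ∧ σ = ρ then ((𝒞.cls ρ).card : ℝ) else 0 := by
  split_ifs with h
  · obtain ⟨h1, rfl⟩ := h
    have : ∀ b ∈ 𝒞.cls σ, jay 𝒞 σ a b = 1 := fun b hb => by
      rw [jay_apply, if_pos ⟨h1, (Finset.mem_filter.1 hb).2⟩]
    rw [Finset.sum_congr rfl this, Finset.sum_const, nsmul_eq_mul, mul_one]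
  · refine Finset.sum_eq_zero fun b hb => ?_
    rw [jay_apply, if_neg]
    rintro ⟨h1, h2⟩
    refine h ⟨h1, ?_⟩
    rw [← (Finset.mem_filter.1 hb).2, h2]

/-- the nontrivial part of a colour -/
noncomputable def red (𝒞 : Cfg V ι m) (ρ R : ι) (v : V) : Matrix V V ℝ :=
  ind 𝒞 R - (((univ.filter fun z => 𝒞.c2 v z = R).card : ℝ) / (𝒞.cls ρ).card) • jay 𝒞 ρ

theorem inv2_red (𝒞 : Cfg V ι m) (hm : 2 ≤ m) (ρ R : ι) (v : V) : 𝒞.Inv2 (red 𝒞 ρ R v) :=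
  Inv2.sub (inv2_ind 𝒞 R) (Inv2.smul _ (inv2_jay 𝒞 hm ρ))

theorem card_cls_pos (𝒞 : Cfg V ι m) {ρ : ι} {v : V} (hv : 𝒞.c1 v = ρ) :
    0 < (𝒞.cls ρ).card := Finset.card_pos.2 ⟨v, Finset.mem_filter.2 ⟨mem_univ _, hv⟩⟩

theorem non_red (𝒞 : Cfg V ι m) (hm : 2 ≤ m) {ρ R : ι} {v : V} (hv : 𝒞.c1 v = ρ)
    (hR : R ∈ 𝒞.rels ρ ρ) : 𝒞.Non (red 𝒞 ρ R v) := by
  intro a σ
  have h0 : ((𝒞.cls ρ).card : ℝ) ≠ 0 := by exact_mod_cast (card_cls_pos 𝒞 hv).ne'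
  simp only [red, Matrix.sub_apply, Matrix.smul_apply, smul_eq_mul, Finset.sum_sub_distrib,
    ← Finset.mul_sum, row_ind 𝒞 hm hv hR, row_jay]
  split_ifs with h
  · rw [div_mul_cancel₀ _ h0, sub_self]
  · simp

theorem non_mul_jay (𝒞 : Cfg V ι m) (ρ : ι) {B : Matrix V V ℝ} (hB : 𝒞.Non B) :
    B * jay 𝒞 ρ = 0 := by
  ext a b
  rw [Matrix.mul_apply, Matrix.zero_apply]
  have h : ∀ c, B a c * jay 𝒞 ρ c b = if 𝒞.c1 c = ρ then (if 𝒞.c1 b = ρ then B a c else 0) else 0 := by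
    intro c
    rw [jay_apply]
    by_cases h1 : 𝒞.c1 c = ρ <;> by_cases h2 : 𝒞.c1 b = ρ <;> simp [h1, h2]
  simp only [h]
  rw [← Finset.sum_filter]
  by_cases h2 : 𝒞.c1 b = ρ
  · simp only [h2, if_true]
    exact hB a ρ
  · simp [h2]

theorem sum_ind (𝒞 : Cfg V ι m) (hm : 2 ≤ m) {ρ R : ι} {v : V} (hv : 𝒞.c1 v = ρ)
    (hR : R ∈ 𝒞.rels ρ ρ) : ∑ a, ∑ b, ind 𝒞 R a b =
      (𝒞.cls ρ).card * ((univ.filter fun z => 𝒞.c2 v z = R).card : ℝ) := by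
  have h1 : ∀ a, ∑ b, ind 𝒞 R a b =
      if 𝒞.c1 a = ρ then ((univ.filter fun z => 𝒞.c2 v z = R).card : ℝ) else 0 := by
    intro a
    have h2 := row_ind 𝒞 hm hv hR a ρ
    simp only [and_true] at h2
    rw [← h2]
    symm
    refine Finset.sum_subset (Finset.subset_univ _) fun b _ hb => ?_
    obtain ⟨⟨x, y⟩, hxy, rfl⟩ := Finset.mem_image.1 hR
    rw [Finset.mem_product] at hxy
    rw [ind_apply, if_neg]
    intro h'
    exact hb (Finset.mem_filter.2 ⟨mem_univ _, (Cfg.c1_snd 𝒞 hm h').trans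
      (Finset.mem_filter.1 hxy.2).2⟩)
  simp only [h1]
  rw [← Finset.sum_filter, Finset.sum_const, nsmul_eq_mul]
  rfl

theorem sum_jay (𝒞 : Cfg V ι m) (ρ : ι) : ∑ a, ∑ b, jay 𝒞 ρ a b = ((𝒞.cls ρ).card : ℝ) ^ 2 := by
  have h1 : ∀ a, ∑ b, jay 𝒞 ρ a b = if 𝒞.c1 a = ρ then ((𝒞.cls ρ).card : ℝ) else 0 := by
    intro a
    simp only [jay_apply]
    by_cases h : 𝒞.c1 a = ρ
    · simp only [h, true_and, if_true]
      rw [← Finset.sum_filter, Finset.sum_const, nsmul_eq_mul, mul_one]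
      rfl
    · simp [h]
  simp only [h1]
  rw [← Finset.sum_filter, Finset.sum_const, nsmul_eq_mul, pow_two]
  rfl

/-- the Hilbert–Schmidt norm of the nontrivial part -/
theorem sum_red_sq (𝒞 : Cfg V ι m) (hm : 2 ≤ m) {ρ R : ι} {v : V} (hv : 𝒞.c1 v = ρ)
    (hR : R ∈ 𝒞.rels ρ ρ) : ∑ a, ∑ b, red 𝒞 ρ R v a b ^ 2 ≤
      (𝒞.cls ρ).card * ((univ.filter fun z => 𝒞.c2 v z = R).card : ℝ) := by
  have h0 : ((𝒞.cls ρ).card : ℝ) ≠ 0 := by exact_mod_cast (card_cls_pos 𝒞 hv).ne'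
  set k : ℝ := ((univ.filter fun z => 𝒞.c2 v z = R).card : ℝ) with hk
  set n : ℝ := ((𝒞.cls ρ).card : ℝ) with hn
  have key : ∀ a b, red 𝒞 ρ R v a b ^ 2 =
      (1 - 2 * (k / n)) * ind 𝒞 R a b + (k / n) ^ 2 * jay 𝒞 ρ a b := by
    intro a b
    obtain ⟨⟨x, y⟩, hxy, rfl⟩ := Finset.mem_image.1 hR
    rw [Finset.mem_product] at hxy
    have hx : 𝒞.c1 x = ρ := (Finset.mem_filter.1 hxy.1).2
    have hy : 𝒞.c1 y = ρ := (Finset.mem_filter.1 hxy.2).2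
    simp only [red, Matrix.sub_apply, Matrix.smul_apply, smul_eq_mul, ind_apply, jay_apply, ← hk,
      ← hn]
    by_cases h : 𝒞.c2 a b = 𝒞.c2 x y
    · have h1 : 𝒞.c1 a = ρ ∧ 𝒞.c1 b = ρ :=
        ⟨(Cfg.c1_fst 𝒞 hm h).trans hx, (Cfg.c1_snd 𝒞 hm h).trans hy⟩
      rw [if_pos h, if_pos h1]
      ring
    · rw [if_neg h]
      split_ifs <;> ring
  simp only [key, Finset.sum_add_distrib, ← Finset.mul_sum]
  rw [sum_ind 𝒞 hm hv hR, sum_jay, ← hk, ← hn]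
  have : (1 - 2 * (k / n)) * (n * k) + (k / n) ^ 2 * n ^ 2 = n * k - k ^ 2 := by
    field_simp
    ring
  rw [this]
  nlinarith [sq_nonneg k]

/-- the trace of `A_R A_S A_R` -/
theorem trace_rsr (𝒞 : Cfg V ι m) (hm : 3 ≤ m) {ρ R S : ι} {v : V} (hv : 𝒞.c1 v = ρ)
    (hR : R ∈ 𝒞.rels ρ ρ) (hS : S ∈ 𝒞.rels ρ ρ) :
    (ind 𝒞 R * ind 𝒞 S * ind 𝒞 R).trace =
      (red 𝒞 ρ R v * red 𝒞 ρ S v * red 𝒞 ρ R v).trace +
      ((univ.filter fun z => 𝒞.c2 v z = R).card : ℝ) ^ 2 *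
        ((univ.filter fun z => 𝒞.c2 v z = S).card : ℝ) := by
  have h0 : ((𝒞.cls ρ).card : ℝ) ≠ 0 := by exact_mod_cast (card_cls_pos 𝒞 hv).ne'
  set k : ℝ := ((univ.filter fun z => 𝒞.c2 v z = R).card : ℝ) with hk
  set l : ℝ := ((univ.filter fun z => 𝒞.c2 v z = S).card : ℝ) with hl
  set n : ℝ := ((𝒞.cls ρ).card : ℝ) with hn
  set B := red 𝒞 ρ R v with hB
  set T := red 𝒞 ρ S v with hT
  set J := jay 𝒞 ρ with hJ
  have eR : ind 𝒞 R = B + (k / n) • J := by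
    rw [hB, red, ← hk, ← hn, ← hJ, sub_add_cancel]
  have eS : ind 𝒞 S = T + (l / n) • J := by
    rw [hT, red, ← hl, ← hn, ← hJ, sub_add_cancel]
  have hBJ : B * J = 0 := non_mul_jay 𝒞 ρ (non_red 𝒞 (by omega) hv hR)
  have hTJ : T * J = 0 := non_mul_jay 𝒞 ρ (non_red 𝒞 (by omega) hv hS)
  have hJJ : J * J = n • J := by
    ext a b
    rw [Matrix.mul_apply, Matrix.smul_apply, smul_eq_mul]
    simp only [hJ, jay_apply]
    by_cases h1 : 𝒞.c1 a = ρ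
    · by_cases h2 : 𝒞.c1 b = ρ
      · simp only [h1, h2, true_and, and_true, if_true, mul_one]
        rw [Finset.sum_congr rfl (g := fun c => if 𝒞.c1 c = ρ then (1 : ℝ) else 0)
          (fun c _ => by split_ifs <;> simp)]
        rw [← Finset.sum_filter, Finset.sum_const, nsmul_eq_mul, mul_one]
        rfl
      · simp [h2]
    · simp [h1]
  have htJ : J.trace = n := by
    simp only [Matrix.trace, Matrix.diag_apply, hJ, jay_apply, and_self]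
    rw [← Finset.sum_filter, Finset.sum_const, nsmul_eq_mul, mul_one]
    rfl
  rw [eR, eS]
  have e1 : (B + (k / n) • J) * (T + (l / n) • J) * (B + (k / n) • J) =
      B * T * B + (k / n) • (J * (T * B)) + ((k / n) * (l / n) * n) • (J * B) +
        ((k / n) * (k / n) * (l / n) * n * n) • J := by
    have e2 : (B + (k / n) • J) * (T + (l / n) • J) =
        B * T + (k / n) • (J * T) + ((k / n) * (l / n) * n) • J := by
      simp only [add_mul, mul_add, Matrix.mul_smul, Matrix.smul_mul, hBJ, hJJ, smul_zero, zero_add,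
        smul_smul]
      congr 2
      ring
    rw [e2]
    simp only [add_mul, mul_add, Matrix.mul_smul, Matrix.smul_mul, Matrix.mul_assoc, hTJ, hJJ,
      smul_zero, zero_add, mul_zero, smul_smul]
    congr 2
    ring
  rw [e1]
  have t1 : (J * (T * B)).trace = 0 := by
    rw [Matrix.trace_mul_comm, Matrix.mul_assoc, hBJ, mul_zero, Matrix.trace_zero]
  have t2 : (J * B).trace = 0 := by
    rw [Matrix.trace_mul_comm, hBJ, Matrix.trace_zero]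
  simp only [Matrix.trace_add, Matrix.trace_smul, t1, t2, htJ, add_zero, smul_eq_mul,
    mul_zero]
  congr 1
  field_simp

theorem van : VanStmt := by
  intro V ι _ _ _ m 𝒞 hm D hD ρ R S v hv hR hS hle hlt
  by_contra hcon
  push Not at hcon
  -- all types `(R, S, R)` are empty
  have hzero : (ind 𝒞 R * ind 𝒞 S * ind 𝒞 R).trace = 0 := by
    refine Finset.sum_eq_zero fun a _ => ?_
    rw [Matrix.diag_apply]
    by_cases ha : 𝒞.c1 a = ρ
    · have h1 : (ind 𝒞 R * ind 𝒞 S * ind 𝒞 R) a a = (ind 𝒞 R * ind 𝒞 S * ind 𝒞 R) v v :=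
        Inv2.mul hm (Inv2.mul hm (inv2_ind 𝒞 R) (inv2_ind 𝒞 S)) (inv2_ind 𝒞 R) _ _ _ _
          (Cfg.c2_diag 𝒞 (by omega) (ha.trans hv.symm))
      rw [h1, Matrix.mul_apply]
      refine Finset.sum_eq_zero fun y _ => ?_
      rw [Matrix.mul_apply, Finset.sum_mul]
      refine Finset.sum_eq_zero fun x _ => ?_
      simp only [ind_apply]
      by_cases h2 : 𝒞.c2 v x = R
      · by_cases h3 : 𝒞.c2 x y = S
        · have := hcon x y h2 h3
          simp [this]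
        · simp [h3]
      · simp [h2]
    · rw [Matrix.mul_apply]
      refine Finset.sum_eq_zero fun y _ => ?_
      rw [Matrix.mul_apply, Finset.sum_mul]
      refine Finset.sum_eq_zero fun x _ => ?_
      rw [ind_apply 𝒞 R a x, if_neg, zero_mul, zero_mul]
      intro h'
      obtain ⟨⟨x', y'⟩, hxy, rfl⟩ := Finset.mem_image.1 hR
      rw [Finset.mem_product] at hxy
      exact ha ((Cfg.c1_fst 𝒞 (by omega) h').trans (Finset.mem_filter.1 hxy.1).2)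
  have h1 := trace_rsr 𝒞 hm hv hR hS
  rw [hzero] at h1
  set k := (univ.filter fun z => 𝒞.c2 v z = R).card with hk
  set l := (univ.filter fun z => 𝒞.c2 v z = S).card with hl
  set n := (𝒞.cls ρ).card with hn
  set B := red 𝒞 ρ R v with hB
  set T := red 𝒞 ρ S v with hT
  have hNT : 𝒞.Non T := non_red 𝒞 (by omega) hv hS
  have hIT : 𝒞.Inv2 T := inv2_red 𝒞 (by omega) ρ S v
  have hITT : 𝒞.Inv2 (T.transpose * T) := Inv2.mul hm (Inv2.transpose (by omega) hIT) hIT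
  have h2 := trace_bound B T D (fun q hq => by
    refine hD _ ?_ ?_ hq
    · exact Inv2.mul hm hITT (Inv2.aeval hm hITT q)
    · have hc : T.transpose * T * Polynomial.aeval (T.transpose * T) q =
          (Polynomial.aeval (T.transpose * T) q * T.transpose) * T := by
        have e : T.transpose * T * Polynomial.aeval (T.transpose * T) q =
            Polynomial.aeval (T.transpose * T) q * (T.transpose * T) := by
          have h1 : Polynomial.aeval (T.transpose * T) (Polynomial.X * q) =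
              Polynomial.aeval (T.transpose * T) (q * Polynomial.X) := by rw [mul_comm]
          rwa [map_mul, map_mul, Polynomial.aeval_X] at h1
        rw [e, Matrix.mul_assoc]
      rw [hc]
      exact Non.mul_left _ hNT)
  have hB2 := sum_red_sq 𝒞 (by omega) hv hR
  have hT2 := sum_red_sq 𝒞 (by omega) hv hS
  rw [← hB, ← hk, ← hn] at hB2
  rw [← hT, ← hl, ← hn] at hT2
  have hkpos : 0 < k := by
    obtain ⟨⟨x, y⟩, hxy, rfl⟩ := Finset.mem_image.1 hR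
    rw [Finset.mem_product] at hxy
    obtain ⟨e, he⟩ := Cfg.exists_equiv1 𝒞 (by omega)
      ((Finset.mem_filter.1 hxy.1).2.trans hv.symm)
    refine Finset.card_pos.2 ⟨e y, Finset.mem_filter.2 ⟨mem_univ _, he y⟩⟩
  have ht : (B * T * B).trace = - ((k : ℝ) ^ 2 * l) := by linarith
  rw [ht] at h2
  have hBn : 0 ≤ ∑ a, ∑ b, B a b ^ 2 :=
    Finset.sum_nonneg fun a _ => Finset.sum_nonneg fun b _ => sq_nonneg _
  have hTn : 0 ≤ ∑ a, ∑ b, T a b ^ 2 :=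
    Finset.sum_nonneg fun a _ => Finset.sum_nonneg fun b _ => sq_nonneg _
  have h3 : (D : ℝ) * ((k : ℝ) ^ 2 * l) ^ 2 ≤ ((n : ℝ) * l) * ((n : ℝ) * k) ^ 2 := by
    calc (D : ℝ) * ((k : ℝ) ^ 2 * l) ^ 2 = D * (- ((k : ℝ) ^ 2 * l)) ^ 2 := by ring
      _ ≤ _ := h2
      _ ≤ ((n : ℝ) * l) * ((n : ℝ) * k) ^ 2 := by
        refine mul_le_mul hT2 (pow_le_pow_left₀ hBn hB2 2) (by positivity) (by positivity)
  have h4 : (D : ℝ) * ((k : ℝ) ^ 2 * l) ≤ (n : ℝ) ^ 3 := by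
    have hkl : (0 : ℝ) < (k : ℝ) ^ 2 * l := by
      have : 0 < l := lt_of_lt_of_le hkpos hle
      positivity
    refine le_of_mul_le_mul_right ?_ hkl
    calc (D : ℝ) * ((k : ℝ) ^ 2 * l) * ((k : ℝ) ^ 2 * l) = (D : ℝ) * ((k : ℝ) ^ 2 * l) ^ 2 := by
          ring
      _ ≤ ((n : ℝ) * l) * ((n : ℝ) * k) ^ 2 := h3
      _ = (n : ℝ) ^ 3 * ((k : ℝ) ^ 2 * l) := by ring
  have h5 : D * (k ^ 2 * l) ≤ n ^ 3 := by exact_mod_cast h4
  have h6 : D * k ^ 3 ≤ D * (k ^ 2 * l) := by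
    refine Nat.mul_le_mul_left _ ?_
    calc k ^ 3 = k ^ 2 * k := by ring
      _ ≤ k ^ 2 * l := Nat.mul_le_mul_left _ hle
  omega

end Vale.Agent.P319.H924
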