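import Mathlib
import Vale.Agent.P319.SC.AIface

/-! P319, block SC, package ALG-ARITH: the number of levels is large enough. -/

set_option linter.all false

namespace Vale.Agent.P319.H924

open Vale.Agent.P319.SC

/-- **ALG-ARITH** -/
theorem arith : ArithStmt := by
  intro C
  refine ⟨4 * C + 12, ?_⟩
  intro s n N M hn hns hN hM
  have hM1 : (4 * C + 12) * scE s ≤ M :=
    hM _ ((Nat.pow_le_pow_left hns _).trans hN)
  have he1 : 1 ≤ scE s := Nat.le_add_left 1 _
  have hD : (2 * C + 6) * scE s ≤ M / 2 := by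
    rw [Nat.le_div_iff_mul_le (by norm_num)]
    calc (2 * C + 6) * scE s * 2 = (4 * C + 12) * scE s := by ring
      _ ≤ M := hM1
  have hL0 : 1 ≤ Nat.log 2 s := Nat.log_pos (by norm_num) (hn.trans hns)
  have hnL : Nat.log 2 n ≤ Nat.log 2 s := Nat.log_mono_right hns
  refine ⟨by nlinarith, ?_⟩
  set L := Nat.log 2 s with hL
  set e := scE s with he
  set l := Nat.log 2 L with hl
  have hee : e = L / l + 1 := rfl
  have hmono : (2 * C + 6) * e * Nat.log 2 ((2 * C + 6) * e) ≤ M / 2 * Nat.log 2 (M / 2) :=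
    Nat.mul_le_mul hD (Nat.log_mono_right hD)
  refine lt_of_le_of_lt (Nat.mul_le_mul_left C hnL) (lt_of_lt_of_le ?_ hmono)
  rcases Nat.eq_zero_or_pos l with h0 | h0
  · have hL1 : L = 1 := by
      rw [hl, Nat.log_eq_zero_iff] at h0
      omega
    have h1 : 1 ≤ Nat.log 2 ((2 * C + 6) * e) := Nat.log_pos (by norm_num) (by nlinarith)
    rw [hL1]
    nlinarith [Nat.zero_le (C * e)]
  · have hlL : 2 ^ l ≤ L := Nat.pow_log_le_self 2 (by omega)
    have hel : L < e * l := by
      rw [hee]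
      exact Nat.lt_mul_of_div_lt (Nat.lt_succ_self _) h0
    have hhalf : 2 ^ ((l + 1) / 2) ≤ (2 * C + 6) * e := by
      have h1 : l / 2 < 2 ^ (l / 2) := Nat.lt_two_pow_self
      have h2 : l ≤ 3 * 2 ^ (l / 2) := by omega
      have h3 : 2 ^ l = 2 ^ ((l + 1) / 2) * 2 ^ (l / 2) := by
        rw [← pow_add]; congr 1; omega
      by_contra hcon
      push Not at hcon
      have h4 : (2 * C + 6) * e * l < (2 * C + 6) * 2 ^ l := by
        calc (2 * C + 6) * e * l < 2 ^ ((l + 1) / 2) * l := (Nat.mul_lt_mul_right h0).2 hcon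
          _ ≤ 2 ^ ((l + 1) / 2) * (3 * 2 ^ (l / 2)) := Nat.mul_le_mul_left _ h2
          _ = 3 * 2 ^ l := by rw [h3]; ring
          _ ≤ (2 * C + 6) * 2 ^ l := Nat.mul_le_mul_right _ (by omega)
      have h5 : (2 * C + 6) * 2 ^ l ≤ (2 * C + 6) * e * l := by
        rw [mul_assoc]
        exact Nat.mul_le_mul_left _ (by omega)
      omega
    have hlog : (l + 1) / 2 ≤ Nat.log 2 ((2 * C + 6) * e) :=
      Nat.le_log_of_pow_le (by norm_num) hhalf
    have h6 : l ≤ 2 * Nat.log 2 ((2 * C + 6) * e) := by omega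
    have h7 : (2 * C + 6) * (L + 1) ≤ (2 * C + 6) * e * l := by
      rw [mul_assoc]
      exact Nat.mul_le_mul_left _ hel
    have h8 : (2 * C + 6) * e * l ≤ 2 * ((2 * C + 6) * e * Nat.log 2 ((2 * C + 6) * e)) := by
      calc (2 * C + 6) * e * l ≤ (2 * C + 6) * e * (2 * Nat.log 2 ((2 * C + 6) * e)) :=
            Nat.mul_le_mul_left _ h6
        _ = _ := by ring
    nlinarith

end Vale.Agent.P319.H924
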