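import Mathlib

/-! P319, block SC, package VAN: the spectral part. -/

namespace Vale.Agent.P319.H924

open Matrix Finset Polynomial

variable {n : Type*} [Fintype n] [DecidableEq n]

/-- the spectral theorem for real symmetric matrices in the form we use -/
theorem exists_diag (N : Matrix n n ℝ) (hN : N.PosSemidef) :
    ∃ (U : Matrix n n ℝ) (μ : n → ℝ), Uᵀ * U = 1 ∧ U * Uᵀ = 1 ∧ N = U * diagonal μ * Uᵀ ∧
      ∀ i, 0 ≤ μ i := by
  have hH := hN.isHermitian
  refine ⟨(hH.eigenvectorUnitary : Matrix n n ℝ), hH.eigenvalues, ?_, ?_, ?_, hN.eigenvalues_nonneg⟩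
  · have := (Unitary.mem_iff.1 hH.eigenvectorUnitary.2).1
    rwa [star_eq_conjTranspose, conjTranspose_eq_transpose_of_trivial] at this
  · have := (Unitary.mem_iff.1 hH.eigenvectorUnitary.2).2
    rwa [star_eq_conjTranspose, conjTranspose_eq_transpose_of_trivial] at this
  · have := hH.spectral_theorem
    rw [Unitary.conjStarAlgAut_apply] at this
    rw [star_eq_conjTranspose, conjTranspose_eq_transpose_of_trivial] at this
    exact this

theorem aeval_conj {U : Matrix n n ℝ} (μ : n → ℝ) (h1 : Uᵀ * U = 1) (h2 : U * Uᵀ = 1)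
    (p : ℝ[X]) : aeval (U * diagonal μ * Uᵀ) p = U * diagonal (fun i => p.eval (μ i)) * Uᵀ := by
  induction p using Polynomial.induction_on' with
  | add p q hp hq =>
    rw [map_add, hp, hq, ← add_mul, ← mul_add, diagonal_add]
    simp
  | monomial k a =>
    rw [aeval_monomial]
    have hk : (U * diagonal μ * Uᵀ) ^ k = U * diagonal (fun i => μ i ^ k) * Uᵀ := by
      induction k with
      | zero => simp [h2]
      | succ k ih =>
        rw [pow_succ, ih]
        have : U * diagonal (fun i => μ i ^ k) * Uᵀ * (U * diagonal μ * Uᵀ) =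
            U * (diagonal (fun i => μ i ^ k) * ((Uᵀ * U) * diagonal μ)) * Uᵀ := by
          simp only [Matrix.mul_assoc]
        rw [this, h1, Matrix.one_mul, diagonal_mul_diagonal]
        simp [pow_succ]
    rw [hk]
    simp only [eval_monomial]
    rw [show (fun i => a * μ i ^ k) = a • (fun i => μ i ^ k) from rfl]
    rw [show diagonal (a • fun i => μ i ^ k) = a • diagonal (fun i => μ i ^ k) from
      diagonal_smul a _]
    rw [Matrix.mul_smul, Matrix.smul_mul, Algebra.algebraMap_eq_smul_one, smul_mul_assoc, one_mul]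

theorem rank_conj {U : Matrix n n ℝ} (d : n → ℝ) (h1 : Uᵀ * U = 1) (h2 : U * Uᵀ = 1) :
    (U * diagonal d * Uᵀ).rank = Fintype.card {i // d i ≠ 0} := by
  have hU : IsUnit U.det := by
    have := congrArg det h1
    rw [det_mul, det_one, det_transpose] at this
    exact IsUnit.of_mul_eq_one _ this
  have hU' : IsUnit Uᵀ.det := by rwa [det_transpose]
  rw [rank_mul_eq_left_of_isUnit_det _ _ hU', rank_mul_eq_right_of_isUnit_det _ _ hU, rank_diagonal]

/-- If the rank of all nonzero matrices of the form `N q(N)` is at least `D`, then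
`D N ≤ tr(N) 1`. -/
theorem top_eig (N : Matrix n n ℝ) (hN : N.PosSemidef) (D : ℕ)
    (h : ∀ q : ℝ[X], N * aeval N q ≠ 0 → D ≤ (N * aeval N q).rank) (u : n → ℝ) :
    D * (u ⬝ᵥ N *ᵥ u) ≤ N.trace * (u ⬝ᵥ u) := by
  obtain ⟨U, μ, h1, h2, hU, hμ⟩ := exists_diag N hN
  rcases isEmpty_or_nonempty n with hn | hn
  · simp [dotProduct]
  obtain ⟨i₀, hi₀⟩ := Finite.exists_max μ
  set l := μ i₀ with hl
  -- the quadratic form
  have hq : u ⬝ᵥ N *ᵥ u ≤ l * (u ⬝ᵥ u) := by
    set w := Uᵀ *ᵥ u with hw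
    have e1 : u ⬝ᵥ N *ᵥ u = ∑ i, μ i * (w i * w i) := by
      rw [hU]
      rw [← mulVec_mulVec, ← mulVec_mulVec, dotProduct_mulVec, ← mulVec_transpose, ← hw]
      simp only [dotProduct, mulVec_diagonal]
      exact Finset.sum_congr rfl fun i _ => by ring
    have e2 : u ⬝ᵥ u = ∑ i, w i * w i := by
      have : u ⬝ᵥ u = u ⬝ᵥ (U * Uᵀ) *ᵥ u := by rw [h2, one_mulVec]
      rw [this, ← mulVec_mulVec, dotProduct_mulVec, ← mulVec_transpose, ← hw]
      rfl
    rw [e1, e2, Finset.mul_sum]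
    exact Finset.sum_le_sum fun i _ => mul_le_mul_of_nonneg_right (hi₀ i) (mul_self_nonneg _)
  have huu : 0 ≤ u ⬝ᵥ u := Finset.sum_nonneg fun i _ => mul_self_nonneg _
  have htr : N.trace = ∑ i, μ i := by
    rw [hU, trace_mul_comm, ← Matrix.mul_assoc, h1, Matrix.one_mul, trace_diagonal]
  suffices hs : D * l ≤ N.trace by
    calc D * (u ⬝ᵥ N *ᵥ u) ≤ D * (l * (u ⬝ᵥ u)) :=
          mul_le_mul_of_nonneg_left hq (Nat.cast_nonneg _)
      _ = (D * l) * (u ⬝ᵥ u) := by ring
      _ ≤ N.trace * (u ⬝ᵥ u) := mul_le_mul_of_nonneg_right hs huu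
  rcases (hμ i₀).eq_or_lt with h0 | h0
  · rw [hl, ← h0, mul_zero, htr]
    exact Finset.sum_nonneg fun i _ => hμ i
  -- the polynomial
  set q : ℝ[X] := ∏ ν ∈ (univ.image μ).erase l, (X - C ν) with hq'
  have hM : N * aeval N q = U * diagonal (fun i => μ i * q.eval (μ i)) * Uᵀ := by
    have e : N * aeval N q = aeval N (X * q) := by rw [map_mul, aeval_X]
    rw [e]
    conv_lhs => rw [hU]
    rw [aeval_conj μ h1 h2]
    simp
  have hev : ∀ i, μ i * q.eval (μ i) ≠ 0 ↔ μ i = l := by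
    intro i
    constructor
    · intro h'
      by_contra hne
      apply h'
      rw [hq', eval_prod]
      have : ∏ ν ∈ (univ.image μ).erase l, eval (μ i) (X - C ν) = 0 :=
        Finset.prod_eq_zero (Finset.mem_erase.2 ⟨hne, Finset.mem_image_of_mem _ (mem_univ i)⟩)
          (by simp)
      rw [this, mul_zero]
    · intro h'
      rw [h', hq', eval_prod]
      refine mul_ne_zero h0.ne' (Finset.prod_ne_zero_iff.2 fun ν hν => ?_)
      have := (Finset.mem_erase.1 hν).1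
      simp only [eval_sub, eval_X, eval_C]
      exact sub_ne_zero.2 this.symm
  have hrk : (N * aeval N q).rank = (univ.filter fun i => μ i = l).card := by
    rw [hM, rank_conj _ h1 h2, Fintype.card_subtype]
    congr 1
    ext i
    simp only [Finset.mem_filter, Finset.mem_univ, true_and]
    exact hev i
  have hne : N * aeval N q ≠ 0 := by
    intro h'
    rw [h', rank_zero] at hrk
    have : i₀ ∈ (univ.filter fun i => μ i = l) := by simp [hl]
    rw [eq_comm, Finset.card_eq_zero] at hrk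
    rw [hrk] at this
    simp at this
  have hD := h q hne
  rw [hrk] at hD
  calc (D : ℝ) * l ≤ (univ.filter fun i => μ i = l).card * l :=
        mul_le_mul_of_nonneg_right (by exact_mod_cast hD) h0.le
    _ = ∑ i ∈ univ.filter (fun i => μ i = l), μ i := by
        rw [Finset.sum_congr rfl (fun i hi => (Finset.mem_filter.1 hi).2), Finset.sum_const,
          nsmul_eq_mul]
    _ ≤ ∑ i, μ i := Finset.sum_le_sum_of_subset_of_nonneg (Finset.filter_subset _ _)
        fun i _ _ => hμ i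
    _ = N.trace := htr.symm

/-- the bound for the norm of `S` -/
theorem norm_bound (S : Matrix n n ℝ) (D : ℕ)
    (h : ∀ q : ℝ[X], Sᵀ * S * aeval (Sᵀ * S) q ≠ 0 → D ≤ (Sᵀ * S * aeval (Sᵀ * S) q).rank)
    (u : n → ℝ) : D * (S *ᵥ u ⬝ᵥ S *ᵥ u) ≤ (∑ a, ∑ b, S a b ^ 2) * (u ⬝ᵥ u) := by
  have hN : (Sᵀ * S).PosSemidef := by
    have := posSemidef_conjTranspose_mul_self S
    rwa [conjTranspose_eq_transpose_of_trivial] at this
  have h1 := top_eig (Sᵀ * S) hN D h u
  have e1 : u ⬝ᵥ (Sᵀ * S) *ᵥ u = S *ᵥ u ⬝ᵥ S *ᵥ u := by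
    rw [← mulVec_mulVec, dotProduct_mulVec, vecMul_transpose]
  have e2 : (Sᵀ * S).trace = ∑ a, ∑ b, S a b ^ 2 := by
    rw [Finset.sum_comm]
    simp only [Matrix.trace, Matrix.diag_apply, Matrix.mul_apply, transpose_apply, pow_two]
  rwa [e1, e2] at h1

/-- the trace bound -/
theorem trace_bound (B S : Matrix n n ℝ) (D : ℕ)
    (h : ∀ q : ℝ[X], Sᵀ * S * aeval (Sᵀ * S) q ≠ 0 → D ≤ (Sᵀ * S * aeval (Sᵀ * S) q).rank) :
    D * (B * S * B).trace ^ 2 ≤ (∑ a, ∑ b, S a b ^ 2) * (∑ a, ∑ b, B a b ^ 2) ^ 2 := by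
  have e0 : (B * S * B).trace = ∑ a, ∑ b, B a b * (S * B) b a := by
    rw [Matrix.mul_assoc]
    refine Finset.sum_congr rfl fun a _ => ?_
    rw [Matrix.diag_apply, Matrix.mul_apply]
  have hcs : (∑ a, ∑ b, B a b * (S * B) b a) ^ 2 ≤
      (∑ a, ∑ b, B a b ^ 2) * (∑ a, ∑ b, (S * B) b a ^ 2) := by
    simp only [← Finset.sum_product']
    exact Finset.sum_mul_sq_le_sq_mul_sq _ _ _
  have hcol : ∀ a, (D : ℝ) * ∑ b, (S * B) b a ^ 2 ≤ (∑ a, ∑ b, S a b ^ 2) * ∑ b, B b a ^ 2 := by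
    intro a
    have := norm_bound S D h (fun b => B b a)
    simp only [dotProduct] at this
    have e : ∀ b, (S *ᵥ fun b => B b a) b = (S * B) b a := fun b => rfl
    simp only [e, ← pow_two] at this
    exact this
  have hS : (D : ℝ) * ∑ a, ∑ b, (S * B) b a ^ 2 ≤
      (∑ a, ∑ b, S a b ^ 2) * ∑ a, ∑ b, B a b ^ 2 := by
    rw [Finset.mul_sum]
    refine (Finset.sum_le_sum fun a _ => hcol a).trans ?_
    rw [← Finset.mul_sum, Finset.sum_comm (f := fun a b => B b a ^ 2)]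
  have hB : 0 ≤ ∑ a, ∑ b, B a b ^ 2 :=
    Finset.sum_nonneg fun a _ => Finset.sum_nonneg fun b _ => sq_nonneg _
  rw [e0]
  calc (D : ℝ) * (∑ a, ∑ b, B a b * (S * B) b a) ^ 2
      ≤ D * ((∑ a, ∑ b, B a b ^ 2) * (∑ a, ∑ b, (S * B) b a ^ 2)) :=
        mul_le_mul_of_nonneg_left hcs (Nat.cast_nonneg _)
    _ = (∑ a, ∑ b, B a b ^ 2) * (D * (∑ a, ∑ b, (S * B) b a ^ 2)) := by ring
    _ ≤ (∑ a, ∑ b, B a b ^ 2) * ((∑ a, ∑ b, S a b ^ 2) * ∑ a, ∑ b, B a b ^ 2) :=
        mul_le_mul_of_nonneg_left hS hB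
    _ = _ := by ring

end Vale.Agent.P319.H924
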