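import Mathlib
import Vale.Agent.P319.SC.AIface

/-! P319, block SC, package ALG-VL: values of the sequences in the cyclic cover tests. -/

set_option linter.all false

namespace Vale.Agent.P319.H924

open Polynomial Vale.Agent.P319.Ev Vale.Agent.P319.SC

section
variable {p : ℕ} [hpf : Fact p.Prime] {g : List ℕ} {Z : Finset (ZMod p)} {m : ℕ}

/-! ### Validity and values of the single operations -/

theorem vl_inh (h : Sit p g Z) : Nonempty (ℕ → Z) := by
  obtain ⟨z, hz⟩ := Finset.card_pos.1 h.card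
  exact ⟨fun _ => ⟨z, hz⟩⟩

theorem vl_add (h : Sit p g Z) {a b : List ℕ} (ha : VecK p (Z.card ^ m) a)
    (hb : VecK p (Z.card ^ m) b) : VecK p (Z.card ^ m) (addL p a b) ∧
      ∀ v : ℕ → Z, vl Z m (addL p a b) v = vl Z m a v + vl Z m b v := by
  obtain ⟨v0⟩ := vl_inh h
  exact ⟨((vl_hom h m v0).add _ _ ha hb).1, fun v => ((vl_hom h m v).add _ _ ha hb).2⟩

theorem vl_mul (h : Sit p g Z) {a b : List ℕ} (ha : VecK p (Z.card ^ m) a)
    (hb : VecK p (Z.card ^ m) b) : VecK p (Z.card ^ m) ((evOps p g m).mul a b) ∧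
      ∀ v : ℕ → Z, vl Z m ((evOps p g m).mul a b) v = vl Z m a v * vl Z m b v := by
  obtain ⟨v0⟩ := vl_inh h
  exact ⟨((vl_hom h m v0).mul _ _ ha hb).1, fun v => ((vl_hom h m v).mul _ _ ha hb).2⟩

theorem vl_smul (h : Sit p g Z) {a : List ℕ} (n : ℕ) (ha : VecK p (Z.card ^ m) a) :
    VecK p (Z.card ^ m) (smulL p n a) ∧
      ∀ v : ℕ → Z, vl Z m (smulL p n a) v = (n : ZMod p) * vl Z m a v := by
  obtain ⟨v0⟩ := vl_inh h
  exact ⟨((vl_hom h m v0).smul n _ ha).1, fun v => ((vl_hom h m v).smul n _ ha).2⟩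

theorem vl_one (h : Sit p g Z) : VecK p (Z.card ^ m) (evOps p g m).one ∧
      ∀ v : ℕ → Z, vl Z m (evOps p g m).one v = 1 := by
  obtain ⟨v0⟩ := vl_inh h
  exact ⟨(vl_hom h m v0).one.1, fun v => (vl_hom h m v).one.2⟩

theorem vl_pow (h : Sit p g Z) {a : List ℕ} (n : ℕ) (ha : VecK p (Z.card ^ m) a) :
    VecK p (Z.card ^ m) ((evOps p g m).pow a n) ∧
      ∀ v : ℕ → Z, vl Z m ((evOps p g m).pow a n) v = vl Z m a v ^ n := by
  obtain ⟨v0⟩ := vl_inh h
  exact ⟨((vl_hom h m v0).pow _ n ha).1, fun v => ((vl_hom h m v).pow _ n ha).2⟩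

theorem vl_scU (h : Sit p g Z) {i j : ℕ} (hi : i < m) (hj : j < m) {w : List ℕ}
    (hw : VecK p (Z.card ^ m) w) : VecK p (Z.card ^ m) (evSubst p g m (scU m i j) w) ∧
      ∀ v : ℕ → Z, vl Z m (evSubst p g m (scU m i j) w) v =
        vl Z m w (Function.update v i (v j)) := by
  have h1 := vl_subst h (f := scU m i j) (fun l hl => by
    unfold scU; rw [sep_getD _ _ hl]; split_ifs <;> omega) hw
  refine ⟨h1.1, fun v => ?_⟩
  rw [h1.2]
  apply vl_congr
  intro l hl
  unfold scU
  rw [sep_getD _ _ hl]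
  by_cases h2 : l = i
  · subst h2
    rw [if_pos rfl, Function.update_self]
  · rw [if_neg h2, Function.update_of_ne h2]

theorem vl_scW (h : Sit p g Z) {k : ℕ} (hk : k + 1 < m) {w : List ℕ}
    (hw : VecK p (Z.card ^ m) w) : VecK p (Z.card ^ m) (evSubst p g m (scW m k) w) ∧
      ∀ v : ℕ → Z, vl Z m (evSubst p g m (scW m k) w) v =
        vl Z m w (Function.update (Function.update v k (v (k + 1))) (k + 1) (v k)) := by
  have h1 := vl_subst h (f := scW m k) (fun l hl => by
    unfold scW; rw [sep_getD _ _ hl]; split_ifs <;> omega) hw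
  refine ⟨h1.1, fun v => ?_⟩
  rw [h1.2]
  apply vl_congr
  intro l hl
  unfold scW
  rw [sep_getD _ _ hl]
  by_cases h2 : l = k
  · subst h2
    rw [if_pos rfl, Function.update_of_ne (by omega), Function.update_self]
  · rw [if_neg h2]
    by_cases h3 : l = k + 1
    · subst h3
      rw [if_pos rfl, Function.update_self]
    · rw [if_neg h3, Function.update_of_ne h3, Function.update_of_ne h2]

theorem scMul_vec (h : Sit p g Z) {k : ℕ} (hk : k + 2 < m) {A B : List ℕ}
    (hA : VecK p (Z.card ^ m) A) (hB : VecK p (Z.card ^ m) B) :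
    VecK p (Z.card ^ m) (scMul p g m k A B) ∧ ∀ v : ℕ → Z,
      vl Z m (scMul p g m k A B) v = ∑ z : Z,
        vl Z m A (Function.update (Function.update v (k + 2) z) (k + 1) z) *
          vl Z m B (Function.update (Function.update v (k + 2) z) k z) := by
  have h1 := vl_scU h (i := k + 1) (j := k + 2) (by omega) hk hA
  have h2 := vl_scU h (i := k) (j := k + 2) (by omega) hk hB
  have h3 := vl_mul h h1.1 h2.1
  have h4 := vl_tr h hk h3.1
  refine ⟨h4.1, fun v => ?_⟩
  unfold scMul
  rw [h4.2]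
  apply Finset.sum_congr rfl
  intro z _
  rw [h3.2, h1.2, h2.2, Function.update_self]

theorem scEq_vec (h : Sit p g Z) {k : ℕ} (hk : k + 1 < m) :
    VecK p (Z.card ^ m) (scEq p g m k) ∧ ∀ v : ℕ → Z,
      vl Z m (scEq p g m k) v = if v k = v (k + 1) then 1 else 0 := by
  have hp := hpf.out
  have x1 := vl_X h (m := m) (i := k) (by omega)
  have x2 := vl_X h (m := m) (i := k + 1) (by omega)
  have h1 := vl_smul h (p - 1) x2.1
  have h2 := vl_add h x1.1 h1.1
  have h3 := vl_pow h (p - 1) h2.1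
  have h4 := vl_smul h (p - 1) h3.1
  have h5 := vl_add h (vl_one h (m := m)).1 h4.1
  refine ⟨h5.1, fun v => ?_⟩
  have h7 : ((p - 1 : ℕ) : ZMod p) = -1 := by
    rw [Nat.cast_sub hp.one_lt.le]; simp
  refine Eq.trans (h5.2 v) ?_
  rw [(vl_one h).2, h4.2, h3.2, h2.2, h1.2, x1.2, x2.2, h7]
  by_cases hv : v k = v (k + 1)
  · rw [if_pos hv, hv]
    have h8 : ((v (k + 1) : ZMod p) + -1 * (v (k + 1) : ZMod p)) = 0 := by ring
    rw [h8, zero_pow (by have := hp.two_le; omega)]
    ring
  · rw [if_neg hv]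
    have h8 : ((v k : ZMod p) + -1 * (v (k + 1) : ZMod p)) ≠ 0 := by
      intro h9
      apply hv
      apply Subtype.ext
      have h10 : (v k : ZMod p) - (v (k + 1) : ZMod p) = 0 := by rw [← h9]; ring
      exact sub_eq_zero.1 h10
    rw [ZMod.pow_card_sub_one_eq_one h8]
    ring

theorem scStep_vec (h : Sit p g Z) {k : ℕ} (hk : k + 2 < m) {w K : List ℕ}
    (hw : VecK p (Z.card ^ m) w) (hK : VecK p (Z.card ^ m) K) :
    VecK p (Z.card ^ m) (scStep p g m k w K) ∧ ∀ v : ℕ → Z,
      vl Z m (scStep p g m k w K) v = (vl Z m K v + (vl Z m (scMul p g m k K K) v +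
        vl Z m (scMul p g m k (evSubst p g m (scW m k) w) (scMul p g m k K w)) v)) ^ (p - 1) := by
  have h1 := scMul_vec h hk hK hK
  have h2 := vl_scW h (k := k) (by omega) hw
  have h3 := scMul_vec h hk hK hw
  have h4 := scMul_vec h hk h2.1 h3.1
  have h5 := vl_add h h1.1 h4.1
  have h6 := vl_add h hK h5.1
  have h7 := vl_pow h (p - 1) h6.1
  refine ⟨h7.1, fun v => ?_⟩
  refine Eq.trans (h7.2 v) ?_
  rw [h6.2, h5.2]

theorem scK_vec (h : Sit p g Z) {k : ℕ} (hk : k + 2 < m) {w : List ℕ}
    (hw : VecK p (Z.card ^ m) w) (t : ℕ) :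
    VecK p (Z.card ^ m) ((scStep p g m k w)^[t] (scEq p g m k)) := by
  induction t with
  | zero => exact (scEq_vec h (by omega)).1
  | succ t ih =>
    rw [Function.iterate_succ_apply']
    exact (scStep_vec h hk hw ih).1

theorem scG_vec (h : Sit p g Z) {i : ℕ} (hi : i < m) (τ : ℕ) (t : ℕ) :
    VecK p (Z.card ^ m) ((fun w => addL p (evOps p g m).one
      ((evOps p g m).mul (smulL p τ (evX p g m i)) w))^[t] (evOps p g m).one) ∧
    ∀ v : ℕ → Z, vl Z m ((fun w => addL p (evOps p g m).one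
      ((evOps p g m).mul (smulL p τ (evX p g m i)) w))^[t] (evOps p g m).one) v =
        ∑ j ∈ Finset.range (t + 1), ((τ : ZMod p) * (v i : ZMod p)) ^ j := by
  have x1 := vl_X h (m := m) hi
  have h1 := vl_smul h τ x1.1
  induction t with
  | zero =>
    refine ⟨(vl_one h).1, fun v => ?_⟩
    simpa using (vl_one h (m := m)).2 v
  | succ t ih =>
    rw [Function.iterate_succ_apply']
    have h2 := vl_mul h h1.1 ih.1
    have h3 := vl_add h (vl_one h (m := m)).1 h2.1
    refine ⟨h3.1, fun v => ?_⟩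
    refine Eq.trans (h3.2 v) ?_
    rw [h2.2, h1.2, x1.2, ih.2, (vl_one h).2, Finset.mul_sum, Finset.sum_range_succ' _ (t + 1),
      pow_zero, add_comm]
    congr 1
    apply Finset.sum_congr rfl
    intro j _
    rw [pow_succ]; ring

theorem scB0_vec (h : Sit p g Z) {k : ℕ} (hk : k + 1 < m) {K : List ℕ}
    (hK : VecK p (Z.card ^ m) K) (τ : ℕ) :
    VecK p (Z.card ^ m) (scB0 p g m k K τ) ∧ ∀ v : ℕ → Z,
      vl Z m (scB0 p g m k K τ) v = ∑ z : Z, vl Z m K (Function.update v (k + 1) z) *
        ∑ j ∈ Finset.range (Z.card + 1), ((τ : ZMod p) * (z : ZMod p)) ^ j := by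
  have h1 := scG_vec h hk τ (g.length - 1)
  have h2 := vl_mul h hK h1.1
  have h3 := vl_tr h hk h2.1
  refine ⟨h3.1, fun v => ?_⟩
  refine Eq.trans (h3.2 v) ?_
  apply Finset.sum_congr rfl
  intro z _
  rw [h2.2, h1.2, Function.update_self, h.len]

theorem invMod_val (hp2 : 2 < p) (κ : ℕ) : ((invMod p κ : ℕ) : ZMod p) = (κ : ZMod p)⁻¹ := by
  have hp := hpf.out
  by_cases h0 : (κ : ZMod p) = 0
  · rw [h0, inv_zero]
    have h := fastPow_spec (M := ZMod p) (mul := fun x y => (x * y) % p) (fun _ => True)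
      (fun x => (x : ZMod p)) (fun a b _ _ => ⟨trivial, by rw [ZMod.natCast_mod]; push_cast; rfl⟩)
      (one := 1) (x := κ) trivial trivial (p - 2)
    unfold invMod
    rw [h.2]
    simp only [h0]
    rw [zero_pow (by omega), mul_zero]
  · have h1 := (invMod_spec h0).resolve_right hp.pos.ne'
    exact eq_inv_of_mul_eq_one_left h1.1

theorem scT_vec (h : Sit p g Z) {k : ℕ} (hk : k + 1 < m) (κ : ℕ) {w b : List ℕ}
    (hw : VecK p (Z.card ^ m) w) (hb : VecK p (Z.card ^ m) b) :
    VecK p (Z.card ^ m) (scT p g m k κ w b) ∧ ∀ v : ℕ → Z,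
      vl Z m (scT p g m k κ w b) v = ((invMod p κ : ℕ) : ZMod p) *
        ∑ z : Z, vl Z m w (Function.update v (k + 1) z) *
          vl Z m b (Function.update (Function.update v (k + 1) z) k z) := by
  have h1 := vl_U h hk hb
  have h2 := vl_mul h hw h1.1
  have h3 := vl_tr h hk h2.1
  have h4 := vl_smul h (invMod p κ) h3.1
  refine ⟨h4.1, fun v => ?_⟩
  refine Eq.trans (h4.2 v) ?_
  rw [h3.2]
  congr 1
  apply Finset.sum_congr rfl
  intro z _
  rw [h2.2, h1.2, Function.update_self]

theorem scTB_vec (h : Sit p g Z) {k : ℕ} (hk : k + 2 < m) {w : List ℕ}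
    (hw : VecK p (Z.card ^ m) w) (κ τ t : ℕ) :
    VecK p (Z.card ^ m) ((scT p g m k κ w)^[t] (scB0 p g m k (scK p g m k w) τ)) := by
  induction t with
  | zero => exact (scB0_vec h (by omega) (scK_vec h hk hw _) τ).1
  | succ t ih =>
    rw [Function.iterate_succ_apply']
    exact (scT_vec h (by omega) κ hw ih).1

/-! ### Values relative to a base -/

/-- over the base `u`, the value only depends on the coordinates `k` and `k + 1` -/
def Rl (Z : Finset (ZMod p)) (m k : ℕ) (u : ℕ → Z) (A : List ℕ) (S : Z → Z → ZMod p) : Prop :=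
  ∀ v : ℕ → Z, (∀ l < k, v l = u l) → vl Z m A v = S (v k) (v (k + 1))

theorem Rl.mul (h : Sit p g Z) {k : ℕ} (hk : k + 2 < m) {u : ℕ → Z} {A B : List ℕ}
    {S T : Z → Z → ZMod p} (hA : VecK p (Z.card ^ m) A) (hB : VecK p (Z.card ^ m) B)
    (h1 : Rl Z m k u A S) (h2 : Rl Z m k u B T) :
    Rl Z m k u (scMul p g m k A B) (fun a b => ∑ c : Z, S a c * T c b) := by
  intro v hv
  rw [(scMul_vec h hk hA hB).2]
  apply Finset.sum_congr rfl
  intro z _
  rw [h1, h2]
  · rw [Function.update_self, Function.update_self, Function.update_of_ne (by omega),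
      Function.update_of_ne (by omega), Function.update_of_ne (by omega),
      Function.update_of_ne (by omega)]
  · intro l hl
    rw [Function.update_of_ne (by omega), Function.update_of_ne (by omega)]
    exact hv l hl
  · intro l hl
    rw [Function.update_of_ne (by omega), Function.update_of_ne (by omega)]
    exact hv l hl

theorem Rl.swap (h : Sit p g Z) {k : ℕ} (hk : k + 1 < m) {u : ℕ → Z} {A : List ℕ}
    {S : Z → Z → ZMod p} (hA : VecK p (Z.card ^ m) A) (h1 : Rl Z m k u A S) :
    Rl Z m k u (evSubst p g m (scW m k) A) (fun a b => S b a) := by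
  intro v hv
  rw [(vl_scW h hk hA).2, h1]
  · rw [Function.update_self, Function.update_of_ne (by omega), Function.update_self]
  · intro l hl
    rw [Function.update_of_ne (by omega), Function.update_of_ne (by omega)]
    exact hv l hl

theorem Rl.step (h : Sit p g Z) {k : ℕ} (hk : k + 2 < m) (hbig : Z.card ^ 2 + Z.card + 1 < p)
    {u : ℕ → Z} {w K : List ℕ} {R P Q : Z → Z → Prop} [∀ a b, Decidable (R a b)]
    [∀ a b, Decidable (P a b)] [∀ a b, Decidable (Q a b)]
    (hw : VecK p (Z.card ^ m) w) (hK : VecK p (Z.card ^ m) K)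
    (h1 : Rl Z m k u w fun a b => if R a b then 1 else 0)
    (h2 : Rl Z m k u K fun a b => if P a b then 1 else 0)
    (hQ : ∀ a b, Q a b ↔ P a b ∨ (∃ c, P a c ∧ P c b) ∨ ∃ c d, R c a ∧ P c d ∧ R d b) :
    Rl Z m k u (scStep p g m k w K) fun a b => if Q a b then 1 else 0 := by
  have hp := hpf.out
  intro v hv
  have h3 := Rl.swap h (k := k) (by omega) hw h1
  have h4 := Rl.mul h hk hK hw h2 h1
  have h5 := Rl.mul h hk (vl_scW h (by omega) hw).1 (scMul_vec h hk hK hw).1 h3 h4
  have h6 := Rl.mul h hk hK hK h2 h2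
  rw [(scStep_vec h hk hw hK).2, h2 v hv, h5 v hv, h6 v hv]
  set a := v k
  set b := v (k + 1)
  have e1 : (∑ c : Z, (if P a c then (1 : ZMod p) else 0) * (if P c b then 1 else 0)) =
      (((Finset.univ.filter fun c : Z => P a c ∧ P c b).card : ℕ) : ZMod p) := by
    rw [Finset.card_eq_sum_ones, Finset.sum_filter]
    push_cast
    apply Finset.sum_congr rfl
    intro c _
    by_cases q1 : P a c <;> by_cases q2 : P c b <;> simp [q1, q2]
  have e2 : (∑ c : Z, (if R c a then (1 : ZMod p) else 0) *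
        ∑ d : Z, (if P c d then (1 : ZMod p) else 0) * (if R d b then 1 else 0)) =
      (((Finset.univ.filter fun x : Z × Z => R x.1 a ∧ P x.1 x.2 ∧ R x.2 b).card : ℕ) :
        ZMod p) := by
    rw [Finset.card_eq_sum_ones, Finset.sum_filter]
    push_cast
    rw [Fintype.sum_prod_type]
    apply Finset.sum_congr rfl
    intro c _
    rw [Finset.mul_sum]
    apply Finset.sum_congr rfl
    intro d _
    by_cases q1 : R c a <;> by_cases q2 : P c d <;> by_cases q3 : R d b <;> simp [q1, q2, q3]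
  beta_reduce
  rw [e1, e2]
  have e3 : (if P a b then (1 : ZMod p) else 0) = (((if P a b then 1 else 0 : ℕ)) : ZMod p) := by
    split_ifs <;> simp
  rw [e3, ← Nat.cast_add, ← Nat.cast_add]
  set n1 : ℕ := if P a b then 1 else 0 with hn1
  set n2 : ℕ := (Finset.univ.filter fun c : Z => P a c ∧ P c b).card with hn2
  set n3 : ℕ := (Finset.univ.filter fun x : Z × Z => R x.1 a ∧ P x.1 x.2 ∧ R x.2 b).card with hn3
  have b1 : n1 ≤ 1 := by rw [hn1]; split_ifs <;> omega
  have b2 : n2 ≤ Z.card := by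
    refine (Finset.card_le_univ _).trans ?_
    simp
  have b3 : n3 ≤ Z.card ^ 2 := by
    refine (Finset.card_le_univ _).trans ?_
    simp [pow_two]
  have hlt : n1 + (n2 + n3) < p := by omega
  by_cases hq : Q a b
  · rw [if_pos hq]
    apply ZMod.pow_card_sub_one_eq_one
    intro h0
    rw [ZMod.natCast_eq_zero_iff] at h0
    have h8 : n1 + (n2 + n3) ≠ 0 := by
      rcases (hQ a b).1 hq with h9 | ⟨c, h9⟩ | ⟨c, d, h9⟩
      · have : n1 = 1 := by rw [hn1, if_pos h9]
        omega
      · have : 0 < n2 := Finset.card_pos.2 ⟨c, by simpa using h9⟩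
        omega
      · have : 0 < n3 := Finset.card_pos.2 ⟨(c, d), by simpa using h9⟩
        omega
    exact h8 (Nat.eq_zero_of_dvd_of_lt h0 hlt)
  · rw [if_neg hq]
    have h8 : n1 + (n2 + n3) = 0 := by
      have c1 : n1 = 0 := by
        rw [hn1, if_neg]
        intro h9
        exact hq ((hQ a b).2 (Or.inl h9))
      have c2 : n2 = 0 := by
        rw [hn2, Finset.card_eq_zero, Finset.filter_eq_empty_iff]
        intro c _ h9
        exact hq ((hQ a b).2 (Or.inr (Or.inl ⟨c, h9⟩)))
      have c3 : n3 = 0 := by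
        rw [hn3, Finset.card_eq_zero, Finset.filter_eq_empty_iff]
        intro c _ h9
        exact hq ((hQ a b).2 (Or.inr (Or.inr ⟨c.1, c.2, h9⟩)))
      omega
    rw [h8, Nat.cast_zero, zero_pow (by have := hp.two_le; omega)]

open Classical in
theorem Rl.K (h : Sit p g Z) {k : ℕ} (hk : k + 2 < m) (hbig : Z.card ^ 2 + Z.card + 1 < p)
    {u : ℕ → Z} {w : List ℕ} {R : Z → Z → Prop} (hw : VecK p (Z.card ^ m) w)
    (h1 : Rl Z m k u w fun a b => if R a b then 1 else 0) (t : ℕ) :
    Rl Z m k u ((scStep p g m k w)^[t] (scEq p g m k)) fun a b => if KRel R t a b then 1 else 0 := by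
  induction t with
  | zero =>
    intro v _
    rw [Function.iterate_zero_apply, (scEq_vec h (by omega)).2]
    beta_reduce
    by_cases h2 : v k = v (k + 1)
    · rw [if_pos h2, if_pos (show KRel R 0 (v k) (v (k + 1)) from h2)]
    · rw [if_neg h2, if_neg (show ¬ KRel R 0 (v k) (v (k + 1)) from h2)]
  | succ t ih =>
    rw [Function.iterate_succ_apply']
    exact Rl.step h hk hbig hw (scK_vec h hk hw t) h1 ih fun a b => by rw [KRel]

end

/-- **ALG-VL**, substitution -/
theorem vlu : VLUStmt := fun p _ g Z h m i j hi hj w hw => vl_scU h hi hj hw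

/-- **ALG-VL**, validity -/
theorem vlvec : VLVecStmt := fun p _ g Z h m k hk w hw κ τ t => scTB_vec h hk hw κ τ t

/-- **ALG-VL**, values -/
theorem vl : VLStmt := by
  classical
  intro p _ g Z h m k hk hbig w hw u R hR κ τ t
  have h1 : Rl Z m k u w fun a b => if R a b then 1 else 0 := by
    intro v hv
    beta_reduce
    by_cases h2 : R (v k) (v (k + 1))
    · rw [if_pos h2]; exact (hR v hv).1 h2
    · rw [if_neg h2]; exact (hR v hv).2 h2
  have hp2 : 2 < p := by
    have := h.card
    nlinarith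
  induction t with
  | zero =>
    intro v hv
    rw [Function.iterate_zero_apply, Function.iterate_zero_apply]
    refine Eq.trans ((scB0_vec h (by omega) (scK_vec h hk hw _) τ).2 v) ?_
    unfold B0
    apply Finset.sum_congr rfl
    intro z _
    have h3 := Rl.K h hk hbig hw h1 ((g.length - 1) ^ 2) (Function.update v (k + 1) z) (by
      intro l hl
      rw [Function.update_of_ne (by omega)]
      exact hv l hl)
    rw [Function.update_of_ne (by omega), Function.update_self] at h3
    rw [h3, h.len]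
    beta_reduce
    by_cases h4 : KRel R (Z.card ^ 2) (v k) z
    · rw [if_pos h4, if_pos h4, one_mul]
    · rw [if_neg h4, if_neg h4, zero_mul]
  | succ t ih =>
    intro v hv
    rw [Function.iterate_succ_apply', Function.iterate_succ_apply',
      (scT_vec h (by omega) κ hw (scTB_vec h hk hw κ τ t)).2, invMod_val hp2]
    rw [Tst]
    congr 1
    apply Finset.sum_congr rfl
    intro z _
    rw [h1 _ (by
      intro l hl
      rw [Function.update_of_ne (by omega)]
      exact hv l hl), ih _ (by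
      intro l hl
      rw [Function.update_of_ne (by omega), Function.update_of_ne (by omega)]
      exact hv l hl), Function.update_self, Function.update_self,
      Function.update_of_ne (by omega)]
    beta_reduce
    by_cases h4 : R (v k) z
    · rw [if_pos h4, if_pos h4, one_mul]
    · rw [if_neg h4, if_neg h4, zero_mul]

end Vale.Agent.P319.H924
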